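import Vale.Agent.P027.H362.Comp1

/-! The step function, the indices and the set of omitted primes are computable. -/

set_option linter.all false

namespace Vale.Agent.P027.H362

open Vale.Agent.P027 Vale.Agent.P027.Q

/-! ### the visible primes -/

lemma coprime_nd (n : ℕ) : Nat.Coprime (xx n).num.natAbs (xx n).den := (xx n).reduced

lemma wt_nat {q n : ℕ} (hq : q.Prime) (hn : n ≠ 0) :
    wt q n = padicValNat q ((xx n).num.natAbs * (xx n).den) / 2 := by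
  have := Fact.mk hq
  have h0 : (xx n).num.natAbs ≠ 0 := Int.natAbs_ne_zero.2 (Rat.num_ne_zero.2 (xx_ne_zero hn))
  have h1 : (xx n).den ≠ 0 := (xx n).den_ne_zero
  rw [padicValNat.mul h0 h1]
  unfold wt
  have h2 : padicValRat q (xx n) =
      (padicValNat q (xx n).num.natAbs : ℤ) - (padicValNat q (xx n).den : ℤ) := rfl
  rw [h2]
  by_cases hd : q ∣ (xx n).den
  · have h3 : ¬ q ∣ (xx n).num.natAbs := by
      intro h3
      have h4 := Nat.dvd_gcd h3 hd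
      rw [(coprime_nd n).gcd_eq_one] at h4
      exact hq.one_lt.ne' (Nat.dvd_one.1 h4)
    rw [padicValNat.eq_zero_of_not_dvd h3]
    omega
  · rw [padicValNat.eq_zero_of_not_dvd hd]
    omega

/-- the visibility test -/
def vis (q m : ℕ) : Prop :=
  q.Prime ∧ q ∣ m ∧ (q % 8 = 3 ∨ q % 8 = 5) ∧ q ≠ 3 ∧
    ∃ k < m + 1, q ^ k ∣ m ∧ ¬ q ^ (k + 1) ∣ m ∧ k / 2 % 2 = 1

lemma vis_iff {q n : ℕ} (hn : n ≠ 0) : vis q ((xx n).num.natAbs * (xx n).den) ↔ q ∈ Vs n := by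
  set m := (xx n).num.natAbs * (xx n).den with hm
  have hm0 : m ≠ 0 :=
    mul_ne_zero (Int.natAbs_ne_zero.2 (Rat.num_ne_zero.2 (xx_ne_zero hn))) (xx n).den_ne_zero
  unfold Vs vis
  rw [← hm, Finset.mem_filter, Nat.mem_primeFactors]
  constructor
  · rintro ⟨hq, hqm, h8, h3, k, hk, h1, h2, hodd⟩
    refine ⟨⟨hq, hqm, hm0⟩, h8, h3, ?_⟩
    have := Fact.mk hq
    rw [wt_nat hq hn, ← hm]
    have h4 : padicValNat q m = k := by
      have a1 := (padicValNat_dvd_iff_le hm0).1 h1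
      have a2 : ¬ k + 1 ≤ padicValNat q m := fun h => h2 ((padicValNat_dvd_iff_le hm0).2 h)
      omega
    rw [h4]
    exact hodd
  · rintro ⟨⟨hq, hqm, -⟩, h8, h3, hodd⟩
    have := Fact.mk hq
    rw [wt_nat hq hn, ← hm] at hodd
    refine ⟨hq, hqm, h8, h3, padicValNat q m, ?_, ?_, ?_, hodd⟩
    · have h1 : q ^ padicValNat q m ∣ m := pow_padicValNat_dvd
      have h2 := Nat.le_of_dvd (Nat.pos_of_ne_zero hm0) h1
      have h3 : padicValNat q m < q ^ padicValNat q m := Nat.lt_pow_self hq.one_lt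
      omega
    · exact pow_padicValNat_dvd
    · exact pow_succ_padicValNat_not_dvd hm0

lemma pp_vis {α : Type} [Primcodable α] {f g : α → ℕ} (hf : Primrec f) (hg : Primrec g) :
    PrimrecPred fun a => vis (f a) (g a) := by
  have h1 : PrimrecPred fun u : ℕ × ℕ => vis u.1 u.2 := by
    have hq : Primrec fun u : ℕ × ℕ => u.1 := Primrec.fst
    have hm : Primrec fun u : ℕ × ℕ => u.2 := Primrec.snd
    have m8 : Primrec fun u : ℕ × ℕ => u.1 % 8 := Primrec.nat_mod.comp hq (Primrec.const 8)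
    have hex : PrimrecPred fun u : ℕ × ℕ =>
        ∃ k < u.2 + 1, u.1 ^ k ∣ u.2 ∧ ¬ u.1 ^ (k + 1) ∣ u.2 ∧ k / 2 % 2 = 1 := by
      apply ex_lt (P := fun k (u : ℕ × ℕ) => u.1 ^ k ∣ u.2 ∧ ¬ u.1 ^ (k + 1) ∣ u.2 ∧
        k / 2 % 2 = 1) _ (Primrec.succ.comp hm)
      have k1 : Primrec fun v : ℕ × (ℕ × ℕ) => v.1 := Primrec.fst
      have q1 : Primrec fun v : ℕ × (ℕ × ℕ) => v.2.1 := Primrec.fst.comp Primrec.snd
      have m1 : Primrec fun v : ℕ × (ℕ × ℕ) => v.2.2 := Primrec.snd.comp Primrec.snd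
      exact (pp_dvd (pr_pow q1 k1) m1).and ((pp_dvd (pr_pow q1 (Primrec.succ.comp k1)) m1).not.and
        (Primrec.eq.comp (Primrec.nat_mod.comp (Primrec.nat_div.comp k1 (Primrec.const 2))
          (Primrec.const 2)) (Primrec.const 1)))
    exact (pp_prime hq).and ((pp_dvd hq hm).and
      (((Primrec.eq.comp m8 (Primrec.const 3)).or (Primrec.eq.comp m8 (Primrec.const 5))).and
        ((Primrec.eq.comp hq (Primrec.const 3)).not.and hex)))
  exact PrimrecPred.comp h1 (Primrec.pair hf hg)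

open Classical in
/-- the product of the visible primes below a bound -/
noncomputable def pv (m j : ℕ) : ℕ := ∏ q ∈ Finset.range j, if vis q m then q else 1

lemma pv_eq {n : ℕ} (hn : n ≠ 0) :
    pv ((xx n).num.natAbs * (xx n).den) ((xx n).num.natAbs * (xx n).den + 1) =
      ∏ q ∈ Vs n, q := by
  classical
  set m := (xx n).num.natAbs * (xx n).den with hm
  have hm0 : m ≠ 0 :=
    mul_ne_zero (Int.natAbs_ne_zero.2 (Rat.num_ne_zero.2 (xx_ne_zero hn))) (xx n).den_ne_zero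
  unfold pv
  rw [← Finset.prod_filter]
  refine Finset.prod_congr ?_ (fun _ _ => rfl)
  ext q
  rw [Finset.mem_filter, Finset.mem_range, hm, vis_iff hn]
  constructor
  · exact fun h => h.2
  · intro h
    refine ⟨?_, h⟩
    have h1 := (vis_iff hn).2 h
    have h2 := Nat.le_of_dvd (Nat.pos_of_ne_zero hm0) h1.2.1
    rw [hm] at h2
    omega

lemma pr_pv : Primrec₂ pv := by
  classical
  have hg : Primrec₂ fun (m : ℕ) (p : ℕ × ℕ) => p.2 * (if vis p.1 m then p.1 else 1) := by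
    have h1 : Primrec fun u : ℕ × (ℕ × ℕ) => u.2.1 := Primrec.fst.comp Primrec.snd
    have h2 : Primrec fun u : ℕ × (ℕ × ℕ) => u.2.2 := Primrec.snd.comp Primrec.snd
    exact Primrec.nat_mul.comp h2 (Primrec.ite (pp_vis h1 Primrec.fst) h1 (Primrec.const 1))
  have h := Primrec.nat_rec (f := fun _ : ℕ => (1 : ℕ)) (Primrec.const 1) hg
  refine h.of_eq (fun m j => ?_)
  induction j with
  | zero => rfl
  | succ j ih =>
    show _ * _ = _
    rw [ih]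
    unfold pv
    rw [Finset.prod_range_succ]

/-- the step function is primitive recursive -/
theorem exists_nx : ∃ nx : ℕ → ℕ, Primrec nx ∧ ∀ n : ℕ, n ≠ 0 → nx n = nxt n := by
  obtain ⟨N, D, hN, hD, h⟩ := exists_nd
  refine ⟨fun n => n * pv (N n * D n) (N n * D n + 1), ?_, fun n hn => ?_⟩
  · have h1 : Primrec fun n => N n * D n := Primrec.nat_mul.comp hN hD
    exact Primrec.nat_mul.comp Primrec.id (pr_pv.comp h1 (Primrec.succ.comp h1))
  · simp only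
    rw [(h n hn).1, (h n hn).2, pv_eq hn]
    rfl

/-- the indices are primitive recursive -/
theorem pr_Om : Primrec fun u : ℕ × ℕ × ℕ => Om u.1 u.2.1 u.2.2 := by
  obtain ⟨nx, hnx, h⟩ := exists_nx
  have h0 : Primrec fun u : ℕ × ℕ => 7 ^ (u.1 + 1) * 3 ^ u.2 :=
    Primrec.nat_mul.comp (pr_pow (Primrec.const 7) (Primrec.succ.comp Primrec.fst))
      (pr_pow (Primrec.const 3) Primrec.snd)
  have h1 : Primrec₂ fun (u : ℕ × ℕ) (p : ℕ × ℕ) => nx p.2 :=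
    hnx.comp (Primrec.snd.comp Primrec.snd)
  have h2 := Primrec.nat_rec h0 h1
  have h3 : Primrec₂ fun (u : ℕ × ℕ) (i : ℕ) => Om u.1 u.2 i := by
    refine h2.of_eq (fun u i => ?_)
    induction i with
    | zero => rfl
    | succ i ih =>
      show nx _ = nxt _
      rw [ih, h _ (om_ne _ _ _)]
  have h4 : Primrec fun u : ℕ × ℕ × ℕ => (u.1, u.2.1) :=
    Primrec.pair Primrec.fst (Primrec.fst.comp Primrec.snd)
  have h5 : Primrec fun u : ℕ × ℕ × ℕ => u.2.2 := Primrec.snd.comp Primrec.snd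
  exact Primrec₂.comp h3 h4 h5

/-! ### orders -/

lemma dv_iff_den {q n : ℕ} (hq : q.Prime) (hn : n ≠ 0) : Dv q n ↔ q ∣ (xx n).den := by
  have := Fact.mk hq
  rw [dv_xx hn]
  have h2 : padicValRat q (xx n) =
      (padicValNat q (xx n).num.natAbs : ℤ) - (padicValNat q (xx n).den : ℤ) := rfl
  constructor
  · intro h
    by_contra hd
    rw [h2, padicValNat.eq_zero_of_not_dvd hd] at h
    omega
  · intro hd
    have h3 : ¬ q ∣ (xx n).num.natAbs := by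
      intro h3
      have h4 := Nat.dvd_gcd h3 hd
      rw [(coprime_nd n).gcd_eq_one] at h4
      exact hq.one_lt.ne' (Nat.dvd_one.1 h4)
    have h4 : 1 ≤ padicValNat q (xx n).den := one_le_padicValNat_of_dvd (xx n).den_ne_zero hd
    rw [h2, padicValNat.eq_zero_of_not_dvd h3]
    omega

lemma ord_iff {q m : ℕ} (hq : q.Prime) (hm : m ≠ 0) :
    Ord q m ↔ q ∣ (xx m).den ∧ ∀ k < m, k ≠ 0 → ¬ q ∣ (xx k).den := by
  rw [← dv_iff_den hq hm]
  constructor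
  · intro h
    refine ⟨(h.2 _).2 dvd_rfl, fun k hk hk0 hd => ?_⟩
    rw [← dv_iff_den hq hk0, h.2] at hd
    have := Nat.le_of_dvd (Nat.pos_of_ne_zero hk0) (Int.natCast_dvd_natCast.1 hd)
    omega
  · rintro ⟨h1, h2⟩
    obtain ⟨M, hM⟩ := exists_Ord hq (k := (m : ℤ)) (by exact_mod_cast hm) h1
    have h3 : M ∣ m := Int.natCast_dvd_natCast.1 ((hM.2 _).1 h1)
    have h4 := Nat.le_of_dvd (Nat.pos_of_ne_zero hm) h3
    rcases h4.lt_or_eq with h5 | h5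
    · exfalso
      apply h2 M h5 hM.1.ne'
      rw [← dv_iff_den hq hM.1.ne', hM.2]
    · rw [← h5]
      exact hM

/-- a primitive recursive test of the order -/
theorem exists_ot : ∃ ot : ℕ × ℕ → Prop, PrimrecPred ot ∧
    ∀ q m : ℕ, q.Prime → m ≠ 0 → (ot (q, m) ↔ Ord q m) := by
  obtain ⟨N, D, hN, hD, h⟩ := exists_nd
  refine ⟨fun u => u.1 ∣ D u.2 ∧ ∀ k < u.2, k ≠ 0 → ¬ u.1 ∣ D k, ?_, fun q m hq hm => ?_⟩
  · refine (pp_dvd Primrec.fst (hD.comp Primrec.snd)).and ?_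
    apply all_lt (P := fun k (u : ℕ × ℕ) => k ≠ 0 → ¬ u.1 ∣ D k) _ Primrec.snd
    have hk : Primrec fun v : ℕ × (ℕ × ℕ) => v.1 := Primrec.fst
    have hq : Primrec fun v : ℕ × (ℕ × ℕ) => v.2.1 := Primrec.fst.comp Primrec.snd
    exact pp_imp (Primrec.eq.comp hk (Primrec.const 0)).not (pp_dvd hq (hD.comp hk)).not
  · rw [ord_iff hq hm]
    simp only
    rw [(h m hm).2]
    refine and_congr_right (fun _ => forall_congr' (fun k => forall_congr' (fun _ =>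
      forall_congr' (fun hk => ?_))))
    rw [(h k hk).2]

/-- the omitted primes -/
def KT (Kl : ℕ → ℕ → ℕ → Prop) : Set ℕ :=
  {q | q.Prime ∧ ∃ a N i, Kl a N i ∧ Ord q (Om a N i) ∧
    ∀ q' < q, q'.Prime → ¬ Ord q' (Om a N i)}

lemma om_bound (hL : Law) {a N i q : ℕ} (hN : 16 ≤ N) (hq : q.Prime)
    (h : Ord q (Om a N i)) : a < 2 * q + 5 ∧ N < 2 * q + 5 ∧ i < 2 * q + 5 := by
  have h1 := ord_le hq h
  have h2 : Om a N 0 ≤ Om a N i :=
    Nat.le_of_dvd (Nat.pos_of_ne_zero (om_ne _ _ _)) (om_dvd a N (Nat.zero_le i))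
  have e0 : Om a N 0 = 7 ^ (a + 1) * 3 ^ N := rfl
  have h3 : a + 1 < 7 ^ (a + 1) := Nat.lt_pow_self (by norm_num)
  have h4 : N < 3 ^ N := Nat.lt_pow_self (by norm_num)
  have p3 : 0 < 3 ^ N := by positivity
  have p7 : 0 < 7 ^ (a + 1) := by positivity
  have h5 : 7 ^ (a + 1) ≤ 7 ^ (a + 1) * 3 ^ N := Nat.le_mul_of_pos_right _ p3
  have h6 : 3 ^ N ≤ 7 ^ (a + 1) * 3 ^ N := Nat.le_mul_of_pos_left _ p7
  rw [e0] at h2
  rcases Nat.eq_zero_or_pos i with rfl | hi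
  · exact ⟨by omega, by omega, by omega⟩
  obtain ⟨j, rfl⟩ : ∃ j, i = j + 1 := ⟨i - 1, by omega⟩
  have h7 := om_growth hL a N hN j
  have h8 : j < 2 ^ j := Nat.lt_pow_self (by norm_num)
  have h9 : 2 ^ j < 2 ^ (2 ^ j) := Nat.lt_pow_self (by norm_num)
  have h10 : 2 ^ (2 ^ j) < 2 ^ (2 ^ (2 ^ j)) := Nat.lt_pow_self (by norm_num)
  refine ⟨by omega, by omega, by omega⟩

/-- the set of the omitted primes is primitive recursive -/
theorem pp_KT (hL : Law) {Kl : ℕ → ℕ → ℕ → Prop}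
    (hK : PrimrecPred fun u : ℕ × ℕ × ℕ => Kl u.1 u.2.1 u.2.2)
    (hb : ∀ a N i, Kl a N i → 16 ≤ N) : PrimrecPred fun q => q ∈ KT Kl := by
  obtain ⟨ot, hot, ho⟩ := exists_ot
  have hOm := pr_Om
  -- the test for `(q, (a, N, i))`
  have hO : PrimrecPred fun u : ℕ × (ℕ × ℕ × ℕ) => ot (u.1, Om u.2.1 u.2.2.1 u.2.2.2) :=
    PrimrecPred.comp hot (Primrec.pair Primrec.fst (hOm.comp Primrec.snd))
  have hmin : PrimrecPred fun u : ℕ × (ℕ × ℕ × ℕ) =>
      ∀ q' < u.1, (q'.Prime → ¬ ot (q', Om u.2.1 u.2.2.1 u.2.2.2)) := by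
    apply all_lt (P := fun q' (u : ℕ × (ℕ × ℕ × ℕ)) =>
      (q'.Prime → ¬ ot (q', Om u.2.1 u.2.2.1 u.2.2.2))) _ Primrec.fst
    have k1 : PrimrecPred fun v : ℕ × (ℕ × (ℕ × ℕ × ℕ)) =>
        ot (v.1, Om v.2.2.1 v.2.2.2.1 v.2.2.2.2) :=
      PrimrecPred.comp hot (Primrec.pair Primrec.fst
        (hOm.comp (Primrec.snd.comp Primrec.snd)))
    exact pp_imp (pp_prime Primrec.fst) k1.not
  have hall : PrimrecPred fun u : ℕ × (ℕ × ℕ × ℕ) => Kl u.2.1 u.2.2.1 u.2.2.2 ∧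
      ot (u.1, Om u.2.1 u.2.2.1 u.2.2.2) ∧
      ∀ q' < u.1, (q'.Prime → ¬ ot (q', Om u.2.1 u.2.2.1 u.2.2.2)) :=
    (PrimrecPred.comp hK Primrec.snd).and (hO.and hmin)
  have hbd : Primrec fun q : ℕ => 2 * q + 5 :=
    Primrec.nat_add.comp (Primrec.nat_mul.comp (Primrec.const 2) Primrec.id) (Primrec.const 5)
  have h1 : PrimrecPred fun w : ℕ × ℕ × ℕ => ∃ i < 2 * w.1 + 5, (Kl w.2.1 w.2.2 i ∧
      ot (w.1, Om w.2.1 w.2.2 i) ∧ ∀ q' < w.1, (q'.Prime → ¬ ot (q', Om w.2.1 w.2.2 i))) := by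
    apply ex_lt (P := fun i (w : ℕ × ℕ × ℕ) => (Kl w.2.1 w.2.2 i ∧
      ot (w.1, Om w.2.1 w.2.2 i) ∧ ∀ q' < w.1, (q'.Prime → ¬ ot (q', Om w.2.1 w.2.2 i)))) _
      (hbd.comp Primrec.fst)
    exact PrimrecPred.comp hall (Primrec.pair (Primrec.fst.comp Primrec.snd)
      (Primrec.pair (Primrec.fst.comp (Primrec.snd.comp Primrec.snd))
        (Primrec.pair (Primrec.snd.comp (Primrec.snd.comp Primrec.snd)) Primrec.fst)))
  have h2 : PrimrecPred fun w : ℕ × ℕ => ∃ N < 2 * w.1 + 5, ∃ i < 2 * w.1 + 5, (Kl w.2 N i ∧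
      ot (w.1, Om w.2 N i) ∧ ∀ q' < w.1, (q'.Prime → ¬ ot (q', Om w.2 N i))) := by
    apply ex_lt (P := fun N (w : ℕ × ℕ) => ∃ i < 2 * w.1 + 5, (Kl w.2 N i ∧
      ot (w.1, Om w.2 N i) ∧ ∀ q' < w.1, (q'.Prime → ¬ ot (q', Om w.2 N i)))) _
      (hbd.comp Primrec.fst)
    have hg : Primrec fun v : ℕ × (ℕ × ℕ) => (v.2.1, v.2.2, v.1) :=
      Primrec.pair (Primrec.fst.comp Primrec.snd)
        (Primrec.pair (Primrec.snd.comp Primrec.snd) Primrec.fst)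
    have h := PrimrecPred.comp h1 hg
    exact h
  have h3 : PrimrecPred fun q : ℕ => ∃ a < 2 * q + 5, ∃ N < 2 * q + 5, ∃ i < 2 * q + 5,
      (Kl a N i ∧ ot (q, Om a N i) ∧ ∀ q' < q, (q'.Prime → ¬ ot (q', Om a N i))) := by
    apply ex_lt (P := fun a (q : ℕ) => ∃ N < 2 * q + 5, ∃ i < 2 * q + 5, (Kl a N i ∧
      ot (q, Om a N i) ∧ ∀ q' < q, (q'.Prime → ¬ ot (q', Om a N i)))) _ hbd
    have hg : Primrec fun v : ℕ × ℕ => (v.2, v.1) := Primrec.pair Primrec.snd Primrec.fst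
    have h := PrimrecPred.comp h2 hg
    exact h
  refine ((pp_prime Primrec.id).and h3).of_eq (fun q => ?_)
  unfold KT
  rw [Set.mem_setOf_eq]
  refine and_congr_right (fun hq => ?_)
  constructor
  · rintro ⟨a, -, N, -, i, -, hkl, hp, hm⟩
    exact ⟨a, N, i, hkl, (ho q _ hq (om_ne _ _ _)).1 hp, fun q' hq' hp' hh =>
      hm q' hq' hp' ((ho q' _ hp' (om_ne _ _ _)).2 hh)⟩
  · rintro ⟨a, N, i, hkl, hp, hm⟩
    obtain ⟨b1, b2, b3⟩ := om_bound hL (hb a N i hkl) hq hp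
    exact ⟨a, b1, N, b2, i, b3, hkl, (ho q _ hq (om_ne _ _ _)).2 hp, fun q' hq' hp' hh =>
      hm q' hq' hp' ((ho q' _ hp' (om_ne _ _ _)).1 hh)⟩

/-- the set of the omitted primes is computable -/
theorem comp_KT (hL : Law) {Kl : ℕ → ℕ → ℕ → Prop}
    (hK : PrimrecPred fun u : ℕ × ℕ × ℕ => Kl u.1 u.2.1 u.2.2)
    (hb : ∀ a N i, Kl a N i → 16 ≤ N) : ComputablePred fun q => q ∈ KT Kl := by
  obtain ⟨i, hi⟩ := pp_KT hL hK hb
  exact ⟨i, hi.to_comp⟩

end Vale.Agent.P027.H362
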