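import Vale.Agent.P027.H362.Comp2
import Vale.Agent.P027.Q.Frm

/-! The set of the omitted primes is computable. -/

set_option linter.all false

namespace Vale.Agent.P027.H362

open Vale.Agent.P027 Vale.Agent.P027.Q

theorem comp (hL : Law) {Kl : ℕ → ℕ → ℕ → Prop}
    (hKl : PrimrecPred (fun u : ℕ × ℕ × ℕ => Kl u.1 u.2.1 u.2.2))
    (hN : ∀ a N i, Kl a N i → 16 ≤ N) : ComputablePred (fun q => q ∈ Q.KT Kl) :=
  comp_KT hL hKl hN

end Vale.Agent.P027.H362
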